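import Vale.Agent.P192Z.Grp.Main
import Vale.Agent.P192Z.Mach.Main

/-!
# P192: an infinite finitely presented periodic group
-/

theorem Vale.Agent.Results.P192.AInfinitePeriodic.result :
    ∃ (G : Type) (_ : Group G), Group.IsFinitelyPresented G ∧ Infinite G ∧
      ∀ g : G, IsOfFinOrder g := by
  obtain ⟨X, _, P, h1, h2, h3, h4, h5⟩ := Vale.Agent.P192Z.algebra_main
  exact Vale.Agent.P192Z.group_main P h1 h2 h3 h4 h5
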